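import Mathlib

/-!
# Real inequalities for sets in `ℝ⁴` whose closure contains a regular tetrahedron
-/

set_option autoImplicit false

namespace Vale.Agent.P052.H181

/-- Cauchy-Schwarz for two pairs of positive numbers. -/
theorem cs2 {A B k o : ℝ} (hk : 0 ≤ k) (ho : 0 ≤ o) (hA : 0 ≤ A - k) (hB : 0 ≤ B - o) :
    Real.sqrt (4 * k * o) + Real.sqrt (4 * ((A - k) * (B - o))) ≤ 2 * Real.sqrt (A * B) := by
  have h1 : 0 ≤ 4 * k * o := by positivity
  have h2 : 0 ≤ 4 * ((A - k) * (B - o)) := by positivity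
  have hA0 : 0 ≤ A := by linarith
  have hB0 : 0 ≤ B := by linarith
  have s1 := Real.sq_sqrt h1
  have s2 := Real.sq_sqrt h2
  have s3 := Real.sq_sqrt (mul_nonneg hA0 hB0)
  have n1 := Real.sqrt_nonneg (4 * k * o)
  have n2 := Real.sqrt_nonneg (4 * ((A - k) * (B - o)))
  have n3 := Real.sqrt_nonneg (A * B)
  set α := Real.sqrt (4 * k * o)
  set β := Real.sqrt (4 * ((A - k) * (B - o)))
  set P := Real.sqrt (A * B)
  have h3 : 0 ≤ k * (B - o) := mul_nonneg hk hB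
  have h4 : 0 ≤ o * (A - k) := mul_nonneg ho hA
  have h5 : α * β ≤ 2 * (k * (B - o) + o * (A - k)) := by
    refine abs_le_of_sq_le_sq' ?_ (by positivity) |>.2
    have : (α * β) ^ 2 = 16 * ((k * (B - o)) * (o * (A - k))) := by
      rw [mul_pow, s1, s2]; ring
    rw [this]
    nlinarith [sq_nonneg (k * (B - o) - o * (A - k))]
  have h6 : (α + β) ^ 2 ≤ (2 * P) ^ 2 := by nlinarith
  exact abs_le_of_sq_le_sq' h6 (by positivity) |>.2

/-- small negative `k` -/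
theorem neg_small {k z : ℝ} (hk : k ≤ 0) (hk1 : 0 ≤ 1 + 4 * k)
    (h : 1 - 2 * z ^ 2 + 4 * k ^ 2 ≤ (1 + 4 * k) ^ 2) : -k ≤ 2 / 5 * z ^ 2 := by
  nlinarith [mul_nonneg (neg_nonneg.2 hk) hk1]

theorem low {A m t : ℝ} (A0 : 0 ≤ A) (m0 : 0 ≤ m) (h : t ≤ A ^ 2 + A) (hm : m ^ 2 + m ≤ t) :
    m ≤ A := by
  by_contra hc
  push Not at hc
  nlinarith

theorem sqb {z a b : ℝ} (h0 : -b ≤ z) (h1 : z ≤ a) (hab : a ≤ b) : z ^ 2 ≤ b ^ 2 := by
  apply sq_le_sq'
  · exact h0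
  · linarith

theorem negmul {k o c : ℝ} (hk : k ≤ 0) (ho : 0 ≤ o) (h : c ≤ 4 * k * o) : c ≤ 0 := by
  nlinarith [mul_nonneg (neg_nonneg.2 hk) ho]

theorem negmul' {k o c : ℝ} (hk : 0 ≤ k) (ho : o ≤ 0) (h : c ≤ 4 * k * o) : c ≤ 0 := by
  nlinarith [mul_nonneg (neg_nonneg.2 ho) hk]

theorem negneg {k o u v c : ℝ} (hk : k ≤ 0) (ho : o ≤ 0) (h1 : -k ≤ u) (h2 : -o ≤ v)
    (h : c ≤ 4 * k * o) : c ≤ 4 * (u * v) := by
  have := mul_le_mul h1 h2 (by linarith) (by linarith)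
  nlinarith

theorem chordα {P α : ℝ} (P0 : 4569 / 10000 ≤ P) (P1 : P ≤ 1) (hα : 0 ≤ α)
    (h : P ^ 2 - 1 / 5 ≤ α ^ 2) : 147 / 100 * P - 58 / 100 ≤ α := by
  by_contra hc
  push Not at hc
  have h2 : α ^ 2 < (147 / 100 * P - 58 / 100) ^ 2 := by
    apply sq_lt_sq'
    · linarith
    · exact hc
  nlinarith [mul_nonneg (sub_nonneg.2 P0) (sub_nonneg.2 P1)]

theorem chordβ {P β : ℝ} (P0 : 4569 / 10000 ≤ P) (P1 : P ≤ 1) (hβ : 0 ≤ β)
    (h : 2 * P - 1 / 5 ≤ β ^ 2) : 914 / 1000 * P + 427 / 1000 ≤ β := by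
  by_contra hc
  push Not at hc
  have h2 : β ^ 2 < (914 / 1000 * P + 427 / 1000) ^ 2 := by
    apply sq_lt_sq'
    · linarith
    · exact hc
  nlinarith [mul_nonneg (sub_nonneg.2 P0) (sub_nonneg.2 P1)]

/-- The inequality of the cells. -/
theorem cells_aux {A B k o z z' : ℝ} (A0 : 0 ≤ A) (A1 : A ≤ 1) (B0 : 0 ≤ B) (B1 : B ≤ 1)
    (hA : 1 - 2 * z ^ 2 ≤ A ^ 2 + A) (hB : 1 - 2 * z' ^ 2 ≤ B ^ 2 + B)
    (z0 : -(1 / 2) ≤ z) (z1 : z ≤ 1 / 5) (y0 : -(1 / 2) ≤ z') (y1 : z' ≤ 1 / 5)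
    (hAk : k + 1 / 4 ≤ A) (hBo : o + 1 / 4 ≤ B)
    (k1 : 0 ≤ 1 + 4 * k) (o1 : 0 ≤ 1 + 4 * o)
    (hk : 1 - 2 * z ^ 2 + 4 * k ^ 2 ≤ (1 + 4 * k) ^ 2)
    (ho : 1 - 2 * z' ^ 2 + 4 * o ^ 2 ≤ (1 + 4 * o) ^ 2)
    (H1 : A * B + 2 * (z * z') ≤ 4 * k * o)
    (H2 : A + B + 2 * (z * z') ≤ 4 * ((A - k) * (B - o))) : False := by
  have zs : z ^ 2 ≤ 1 / 4 := by
    have := sqb z0 z1 (by norm_num)
    norm_num at this ⊢
    linarith
  have ys : z' ^ 2 ≤ 1 / 4 := by
    have := sqb y0 y1 (by norm_num)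
    norm_num at this ⊢
    linarith
  have a36 : 73 / 200 ≤ A := low A0 (by norm_num) hA (by norm_num; linarith)
  have b36 : 73 / 200 ≤ B := low B0 (by norm_num) hB (by norm_num; linarith)
  have hAB : 0 < A * B := mul_pos (by linarith) (by linarith)
  have hAB36 : 73 / 200 * (73 / 200) ≤ A * B := mul_le_mul a36 b36 (by norm_num) A0
  rcases le_or_gt 0 (z * z') with ht | ht
  · -- nonnegative product
    rcases le_or_gt k 0 with hk0 | hk0
    · rcases le_or_gt o 0 with ho0 | ho0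
      · have e1 := neg_small hk0 k1 hk
        have e2 := neg_small ho0 o1 ho
        have e5 := negneg hk0 ho0 (e1.trans (by linarith : 2 / 5 * z ^ 2 ≤ 1 / 10))
          (e2.trans (by linarith : 2 / 5 * z' ^ 2 ≤ 1 / 10)) H1
        linarith
      · have := negmul hk0 ho0.le H1
        linarith
    · rcases le_or_gt o 0 with ho0 | ho0
      · have := negmul' hk0.le ho0 H1
        linarith
      · -- both positive
        have e1 : A * B ≤ 4 * k * o := by linarith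
        have e2 : 2 * (A * B) ≤ 4 * ((A - k) * (B - o)) := by
          have q1 : A * B ≤ A := mul_le_of_le_one_right A0 B1
          have q2 : A * B ≤ B := mul_le_of_le_one_left B0 A1
          linarith
        have hAk' : 0 ≤ A - k := by linarith
        have hBo' : 0 ≤ B - o := by linarith
        have h := cs2 hk0.le ho0.le hAk' hBo'
        have f1 : Real.sqrt (A * B) ≤ Real.sqrt (4 * k * o) := Real.sqrt_le_sqrt e1
        have f2 : Real.sqrt (2 * (A * B)) ≤ Real.sqrt (4 * ((A - k) * (B - o))) :=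
          Real.sqrt_le_sqrt e2
        have f3 : Real.sqrt (A * B) < Real.sqrt (2 * (A * B)) :=
          Real.sqrt_lt_sqrt hAB.le (by linarith)
        linarith
  · -- negative product
    have key : 2088 / 10000 ≤ A * B ∧ -(1 / 10) ≤ z * z' ∧ z ^ 2 * z' ^ 2 ≤ 1 / 100 := by
      rcases lt_or_ge z 0 with hz | hz
      · have hz' : 0 < z' := by
          by_contra hc
          push Not at hc
          exact absurd (mul_nonneg_of_nonpos_of_nonpos hz.le hc) (not_le.2 ht)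
        have ys' : z' ^ 2 ≤ 1 / 25 := by
          have := sqb (a := 1 / 5) (b := 1 / 5) (by linarith : -(1 / 5) ≤ z') y1 le_rfl
          norm_num at this ⊢
          linarith
        have b58 : 581 / 1000 ≤ B := low B0 (by norm_num) hB (by norm_num; linarith)
        refine ⟨?_, ?_, ?_⟩
        · have := mul_le_mul a36 b58 (by norm_num) A0
          linarith
        · have := mul_le_mul (show -z ≤ 1 / 2 by linarith) y1 hz'.le (by norm_num)
          linarith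
        · have := mul_le_mul zs ys' (by positivity) (by norm_num)
          linarith
      · have hz0 : 0 < z := by
          rcases hz.lt_or_eq with h | h
          · exact h
          · rw [← h] at ht; simp at ht
        have hz' : z' < 0 := by
          by_contra hc
          push Not at hc
          exact absurd (mul_nonneg hz0.le hc) (not_le.2 ht)
        have zs' : z ^ 2 ≤ 1 / 25 := by
          have := sqb (a := 1 / 5) (b := 1 / 5) (by linarith : -(1 / 5) ≤ z) z1 le_rfl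
          norm_num at this ⊢
          linarith
        have a58 : 581 / 1000 ≤ A := low A0 (by norm_num) hA (by norm_num; linarith)
        refine ⟨?_, ?_, ?_⟩
        · have := mul_le_mul a58 b36 (by norm_num) A0
          linarith
        · have := mul_le_mul z1 (show -z' ≤ 1 / 2 by linarith) (by linarith) (by norm_num)
          linarith
        · have := mul_le_mul zs' ys (by positivity) (by norm_num)
          linarith
    obtain ⟨hP, htau, hzz⟩ := key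
    rcases le_or_gt k 0 with hk0 | hk0
    · rcases le_or_gt o 0 with ho0 | ho0
      · have e1 := neg_small hk0 k1 hk
        have e2 := neg_small ho0 o1 ho
        have e5 := negneg hk0 ho0 e1 e2 H1
        linarith
      · have := negmul hk0 ho0.le H1
        linarith
    · rcases le_or_gt o 0 with ho0 | ho0
      · have := negmul' hk0.le ho0 H1
        linarith
      · have hAk' : 0 ≤ A - k := by linarith
        have hBo' : 0 ≤ B - o := by linarith
        have h := cs2 hk0.le ho0.le hAk' hBo'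
        have sP := Real.sq_sqrt hAB.le
        have nP := Real.sqrt_nonneg (A * B)
        have sα := Real.sq_sqrt (show 0 ≤ 4 * k * o by positivity)
        have sβ := Real.sq_sqrt (show 0 ≤ 4 * ((A - k) * (B - o)) by positivity)
        have nα := Real.sqrt_nonneg (4 * k * o)
        have nβ := Real.sqrt_nonneg (4 * ((A - k) * (B - o)))
        set P := Real.sqrt (A * B)
        set α := Real.sqrt (4 * k * o)
        set β := Real.sqrt (4 * ((A - k) * (B - o)))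
        have hAB1 : A * B ≤ 1 := mul_le_one₀ A1 B0 B1
        have P1 : P ≤ 1 := Real.sqrt_le_one.2 hAB1
        have P0 : 4569 / 10000 ≤ P := Real.le_sqrt_of_sq_le (by norm_num; linarith)
        have hα2 : P ^ 2 - 1 / 5 ≤ α ^ 2 := by linarith
        have hAB2 : 2 * P ≤ A + B := by
          refine abs_le_of_sq_le_sq' ?_ (by linarith) |>.2
          nlinarith [sq_nonneg (A - B)]
        have hβ2 : 2 * P - 1 / 5 ≤ β ^ 2 := by linarith
        have hα : 147 / 100 * P - 58 / 100 ≤ α := chordα P0 P1 nα hα2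
        have hβ : 914 / 1000 * P + 427 / 1000 ≤ β := chordβ P0 P1 nβ hβ2
        linarith

/-- End of the inequality of the cap. -/
theorem cap_end {s σ : ℝ} (s0 : 0 ≤ s) (nσ : 0 ≤ σ) (hs1 : 8 * σ - 2 ≤ s ^ 2)
    (hs2 : s ≤ 2 - 4 * σ) (hs3 : 8 / 100 * (1 + s) ≤ σ ^ 2) : False := by
  have hs4 : s ≤ 58 / 100 := by
    by_contra hc
    push Not at hc
    have h1 : σ ≤ (2 - s) / 4 := by linarith
    have h2 : σ ^ 2 ≤ ((2 - s) / 4) ^ 2 := by
      apply sq_le_sq'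
      · linarith
      · exact h1
    nlinarith [mul_nonneg (sub_nonneg.2 hc.le) (show 0 ≤ 2 - s by linarith)]
  have hs5 : 2828 / 10000 + 125 / 1000 * s ≤ σ := by
    by_contra hc
    push Not at hc
    have h2 : σ ^ 2 < (2828 / 10000 + 125 / 1000 * s) ^ 2 := by
      apply sq_lt_sq'
      · linarith
      · exact hc
    nlinarith [mul_nonneg s0 (sub_nonneg.2 hs4)]
  nlinarith [mul_nonneg s0 (sub_nonneg.2 hs4)]

/-- The normalised inequality of the cap. -/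
theorem cap_norm {H K x y ρ : ℝ} (H1' : 1 ≤ H) (K1' : 1 ≤ K) (hx0 : 0 < x) (hy0 : 0 < y)
    (hx1 : x < 1) (hy1 : y < 1) (i1 : ρ ≤ 4 * (x * y))
    (i2 : H + K + ρ ≤ 4 * ((1 - x) * (1 - y)))
    (i3 : 2 + 4 * ρ ≤ (H - 1) ^ 2 + (K - 1) ^ 2 + 4 * (1 - x - y) ^ 2)
    (hρ0 : 8 / 100 * (H * K) ≤ ρ) : False := by
  have hHK : 1 + (H + K - 2) ≤ H * K := by
    have := mul_nonneg (sub_nonneg.2 H1') (sub_nonneg.2 K1')
    linarith
  have hρp : 0 < ρ := by linarith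
  -- square root of rho
  have sσ := Real.sq_sqrt hρp.le
  have nσ := Real.sqrt_nonneg ρ
  set σ := Real.sqrt ρ with hσ
  clear_value σ
  have sw := Real.sq_sqrt (mul_pos hx0 hy0).le
  have nw := Real.sqrt_nonneg (x * y)
  set w := Real.sqrt (x * y) with hw
  clear_value w
  have hσw : σ ≤ 2 * w := by
    refine abs_le_of_sq_le_sq' ?_ (by positivity) |>.2
    linarith
  have hxy2 : 2 * w ≤ x + y := by
    refine abs_le_of_sq_le_sq' ?_ (by positivity) |>.2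
    have := sq_nonneg (x - y)
    linarith
  have hxy1 : x + y ≤ 1 := by
    by_contra hc
    push Not at hc
    have h1 : (1 - x) * (1 - y) ≤ 1 / 4 := by
      have e : (1 - x) * (1 - y) = ((2 - (x + y)) ^ 2 - (x - y) ^ 2) / 4 := by ring
      have e2 : (2 - (x + y)) ^ 2 ≤ 1 ^ 2 := by
        apply sq_le_sq'
        · linarith
        · linarith
      have := sq_nonneg (x - y)
      rw [e]
      linarith
    linarith
  have hw1 : w ≤ 1 := by linarith
  have hs : H + K ≤ 4 - 4 * σ := by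
    have h1 : (1 - x) * (1 - y) ≤ (1 - w) ^ 2 := by
      have e : (1 - x) * (1 - y) = 1 - (x + y) + w ^ 2 := by rw [sw]; ring
      have e' : (1 - w) ^ 2 = 1 - 2 * w + w ^ 2 := by ring
      linarith
    have h2 : (1 - w) ^ 2 ≤ (1 - σ / 2) ^ 2 := by
      apply sq_le_sq'
      · linarith
      · linarith
    have h3 : 4 * (1 - σ / 2) ^ 2 = 4 - 4 * σ + σ ^ 2 := by ring
    linarith
  have hq : 8 * σ - 2 ≤ (H - 1) ^ 2 + (K - 1) ^ 2 := by
    have h1 : (1 - x - y) ^ 2 ≤ (1 - σ) ^ 2 := by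
      apply sq_le_sq'
      · linarith
      · linarith
    have h3 : 4 * (1 - σ) ^ 2 = 4 - 8 * σ + 4 * σ ^ 2 := by ring
    linarith
  have hs1 : 8 * σ - 2 ≤ (H + K - 2) ^ 2 := by
    have : (H - 1) ^ 2 + (K - 1) ^ 2 ≤ (H + K - 2) ^ 2 := by
      have := mul_nonneg (sub_nonneg.2 H1') (sub_nonneg.2 K1')
      have e : (H + K - 2) ^ 2 = (H - 1) ^ 2 + (K - 1) ^ 2 + 2 * ((H - 1) * (K - 1)) := by ring
      linarith
    linarith
  have hs2 : H + K - 2 ≤ 2 - 4 * σ := by linarith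
  have hs3 : 8 / 100 * (1 + (H + K - 2)) ≤ σ ^ 2 := by linarith
  have s0 : 0 ≤ H + K - 2 := by linarith
  exact cap_end s0 nσ hs1 hs2 hs3

/-- The inequality of the cap. -/
theorem cap_aux {A B k o z z' : ℝ} (A1 : A ≤ 1) (B1 : B ≤ 1)
    (z0 : 1 / 5 ≤ z) (z1 : z ≤ 1) (y0 : 1 / 5 ≤ z') (y1 : z' ≤ 1)
    (hAk : k + 1 / 4 ≤ A) (hBo : o + 1 / 4 ≤ B)
    (k1 : 0 ≤ 1 + 4 * k) (o1 : 0 ≤ 1 + 4 * o)
    (hk : 1 - 2 * z ^ 2 + 4 * k ^ 2 ≤ (1 + 4 * k) ^ 2)
    (ho : 1 - 2 * z' ^ 2 + 4 * o ^ 2 ≤ (1 + 4 * o) ^ 2)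
    (H1 : 2 * (z * z') ≤ 4 * k * o)
    (H2 : A + B + 2 * (z * z') ≤ 4 * ((A - k) * (B - o)))
    (H3 : 0 ≤ B ^ 2 * (1 - 2 * z ^ 2 + 4 * k ^ 2) + A ^ 2 * (1 - 2 * z' ^ 2 + 4 * o ^ 2) +
      4 * A ^ 2 * B ^ 2 + 2 * A * B * (4 * k * o - 2 * (z * z')) - 2 * A * B ^ 2 * (1 + 4 * k) -
      2 * A ^ 2 * B * (1 + 4 * o)) : False := by
  have hzz : 1 / 25 ≤ z * z' := by
    have := mul_le_mul z0 y0 (by norm_num) (by linarith)
    linarith
  have hzz1 : z * z' ≤ 1 := mul_le_one₀ z1 (by linarith) y1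
  rcases le_or_gt k 0 with hk0 | hk0
  · rcases le_or_gt o 0 with ho0 | ho0
    · have e1 := neg_small hk0 k1 hk
      have e2 := neg_small ho0 o1 ho
      have e5 := negneg hk0 ho0 e1 e2 H1
      have e6 : (z * z') * (z * z') ≤ 1 * (z * z') :=
        mul_le_mul_of_nonneg_right hzz1 (by linarith)
      linarith
    · have := negmul hk0 ho0.le H1
      linarith
  rcases le_or_gt o 0 with ho0 | ho0
  · have := negmul' hk0.le ho0 H1
    linarith
  have A0 : 0 < A := by linarith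
  have B0 : 0 < B := by linarith
  have hAk' : 0 < A - k := by linarith
  have hBo' : 0 < B - o := by linarith
  -- normalised variables
  obtain ⟨H, hH⟩ : ∃ H, H = A⁻¹ := ⟨_, rfl⟩
  obtain ⟨K, hK⟩ : ∃ K, K = B⁻¹ := ⟨_, rfl⟩
  have hHA : A * H = 1 := by rw [hH]; exact mul_inv_cancel₀ A0.ne'
  have hKB : B * K = 1 := by rw [hK]; exact mul_inv_cancel₀ B0.ne'
  have H1' : 1 ≤ H := by rw [hH]; exact (one_le_inv₀ A0).2 A1
  have K1' : 1 ≤ K := by rw [hK]; exact (one_le_inv₀ B0).2 B1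
  obtain ⟨x, hx⟩ : ∃ x, x = k * H := ⟨_, rfl⟩
  obtain ⟨y, hy⟩ : ∃ y, y = o * K := ⟨_, rfl⟩
  have hx0 : 0 < x := by rw [hx]; positivity
  have hy0 : 0 < y := by rw [hy]; positivity
  have hkx : k = A * x := by rw [hx]; linear_combination (-k) * hHA
  have hoy : o = B * y := by rw [hy]; linear_combination (-o) * hKB
  have hx1 : x < 1 := by
    rw [hx, ← hHA]
    exact mul_lt_mul_of_pos_right (by linarith) (by linarith)
  have hy1 : y < 1 := by
    rw [hy, ← hKB]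
    exact mul_lt_mul_of_pos_right (by linarith) (by linarith)
  have hHK : 0 < H * K := by positivity
  obtain ⟨ρ, hρ⟩ : ∃ ρ, ρ = 2 * (z * z') * (H * K) := ⟨_, rfl⟩
  have i1 : ρ ≤ 4 * (x * y) := by
    have h := mul_le_mul_of_nonneg_right H1 hHK.le
    have e : 4 * k * o * (H * K) = 4 * (x * y) := by rw [hx, hy]; ring
    rw [hρ]; linarith
  have i2 : H + K + ρ ≤ 4 * ((1 - x) * (1 - y)) := by
    have h := mul_le_mul_of_nonneg_right H2 hHK.le
    have e : 4 * ((A - k) * (B - o)) * (H * K) = 4 * ((1 - x) * (1 - y)) := by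
      rw [hkx, hoy]
      linear_combination (4 * (1 - x) * (1 - y) * (B * K)) * hHA + 4 * (1 - x) * (1 - y) * hKB
    have e' : (A + B + 2 * (z * z')) * (H * K) = H + K + ρ := by
      rw [hρ]; linear_combination K * hHA + H * hKB
    linarith
  have i3 : 2 + 4 * ρ ≤ (H - 1) ^ 2 + (K - 1) ^ 2 + 4 * (1 - x - y) ^ 2 := by
    have h := mul_nonneg H3 (by positivity : 0 ≤ (H * K) ^ 2)
    have e : (B ^ 2 * (1 - 2 * z ^ 2 + 4 * k ^ 2) + A ^ 2 * (1 - 2 * z' ^ 2 + 4 * o ^ 2) +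
      4 * A ^ 2 * B ^ 2 + 2 * A * B * (4 * k * o - 2 * (z * z')) - 2 * A * B ^ 2 * (1 + 4 * k) -
      2 * A ^ 2 * B * (1 + 4 * o)) * (H * K) ^ 2 = (1 - 2 * z ^ 2) * H ^ 2 + 4 * x ^ 2 +
      (1 - 2 * z' ^ 2) * K ^ 2 + 4 * y ^ 2 + 4 + 8 * (x * y) - 2 * ρ - 2 * (H + 4 * x) -
      2 * (K + 4 * y) := by
      rw [hρ, hx, hy]
      have a2 : A ^ 2 * H ^ 2 = 1 := by rw [← mul_pow, hHA, one_pow]
      have b2 : B ^ 2 * K ^ 2 = 1 := by rw [← mul_pow, hKB, one_pow]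
      have t1 : B ^ 2 * (1 - 2 * z ^ 2 + 4 * k ^ 2) * (H * K) ^ 2 =
          (1 - 2 * z ^ 2) * H ^ 2 + 4 * (k * H) ^ 2 := by
        linear_combination ((1 - 2 * z ^ 2 + 4 * k ^ 2) * H ^ 2) * b2
      have t2 : A ^ 2 * (1 - 2 * z' ^ 2 + 4 * o ^ 2) * (H * K) ^ 2 =
          (1 - 2 * z' ^ 2) * K ^ 2 + 4 * (o * K) ^ 2 := by
        linear_combination ((1 - 2 * z' ^ 2 + 4 * o ^ 2) * K ^ 2) * a2
      have t3 : 4 * A ^ 2 * B ^ 2 * (H * K) ^ 2 = 4 := by
        linear_combination (4 * (B ^ 2 * K ^ 2)) * a2 + 4 * b2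
      have t4 : 2 * A * B * (4 * k * o - 2 * (z * z')) * (H * K) ^ 2 =
          8 * (k * H * (o * K)) - 2 * (2 * (z * z') * (H * K)) := by
        linear_combination (2 * (4 * k * o - 2 * (z * z')) * H * K * (B * K)) * hHA +
          (2 * (4 * k * o - 2 * (z * z')) * H * K) * hKB
      have t5 : 2 * A * B ^ 2 * (1 + 4 * k) * (H * K) ^ 2 = 2 * (H + 4 * (k * H)) := by
        linear_combination (2 * (1 + 4 * k) * H * (B ^ 2 * K ^ 2)) * hHA +
          (2 * (1 + 4 * k) * H) * b2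
      have t6 : 2 * A ^ 2 * B * (1 + 4 * o) * (H * K) ^ 2 = 2 * (K + 4 * (o * K)) := by
        linear_combination (2 * (1 + 4 * o) * K * (A ^ 2 * H ^ 2)) * hKB +
          (2 * (1 + 4 * o) * K) * a2
      linear_combination t1 + t2 + t3 + t4 - t5 - t6
    have h2 : 2 * ρ ≤ 2 * z ^ 2 * H ^ 2 + 2 * z' ^ 2 * K ^ 2 := by
      have := sq_nonneg (z * H - z' * K)
      rw [hρ]; linarith
    rw [e] at h
    linarith
  have hρ0 : 8 / 100 * (H * K) ≤ ρ := by
    rw [hρ]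
    exact mul_le_mul_of_nonneg_right (by linarith) hHK.le
  exact cap_norm H1' K1' hx0 hy0 hx1 hy1 i1 i2 i3 hρ0

section vectors

variable {e f : Fin 4 → ℝ} {k o z z' : ℝ}

/-- Points of one cell. -/
theorem cells (he : ∀ j, 0 ≤ e j) (he1 : ∀ j, e j ≤ 1) (hf : ∀ j, 0 ≤ f j)
    (hf1 : ∀ j, f j ≤ 1) (se : ∑ j, e j = 1 + 4 * k) (se2 : ∑ j, e j ^ 2 = 1 - 2 * z ^ 2 + 4 * k ^ 2)
    (sf : ∑ j, f j = 1 + 4 * o) (sf2 : ∑ j, f j ^ 2 = 1 - 2 * z' ^ 2 + 4 * o ^ 2)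
    (z0 : -(1 / 2) ≤ z) (z1 : z ≤ 1 / 5) (y0 : -(1 / 2) ≤ z') (y1 : z' ≤ 1 / 5) {i : Fin 4}
    (hi : ∀ j, e j ≤ e i) (hi' : ∀ j, f j ≤ f i) :
    4 * k * o < ∑ j, e j * f j + 2 * (z * z') := by
  by_contra hc
  push Not at hc
  have E1 : e i * f i ≤ ∑ j, e j * f j :=
    Finset.single_le_sum (f := fun j => e j * f j) (fun j _ => mul_nonneg (he j) (hf j))
      (Finset.mem_univ i)
  have E2 : 0 ≤ ∑ j, (e i - e j) * (f i - f j) :=
    Finset.sum_nonneg fun j _ => mul_nonneg (sub_nonneg.2 (hi j)) (sub_nonneg.2 (hi' j))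
  have E3 : ∑ j, e j ^ 2 ≤ e i * ∑ j, e j := by
    rw [Finset.mul_sum]
    exact Finset.sum_le_sum fun j _ => by nlinarith [he j, hi j]
  have F3 : ∑ j, f j ^ 2 ≤ f i * ∑ j, f j := by
    rw [Finset.mul_sum]
    exact Finset.sum_le_sum fun j _ => by nlinarith [hf j, hi' j]
  have E4 : ∑ j, e j ≤ 4 * e i := by
    have := Finset.sum_le_sum (s := Finset.univ) fun j _ => hi j
    simpa using this
  have F4 : ∑ j, f j ≤ 4 * f i := by
    have := Finset.sum_le_sum (s := Finset.univ) fun j _ => hi' j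
    simpa using this
  have E5 : ∑ j, e j ^ 2 ≤ (∑ j, e j) ^ 2 := Finset.sum_sq_le_sq_sum_of_nonneg fun j _ => he j
  have F5 : ∑ j, f j ^ 2 ≤ (∑ j, f j) ^ 2 := Finset.sum_sq_le_sq_sum_of_nonneg fun j _ => hf j
  have E6 : ∑ j, (e i - e j) * (f i - f j) = 4 * (e i * f i) - e i * ∑ j, f j - f i * ∑ j, e j +
      ∑ j, e j * f j := by
    simp only [Fin.sum_univ_four]; ring
  rw [se] at E3 E4 E5 E6
  rw [sf] at F3 F4 F5 E6
  rw [se2] at E3 E5
  rw [sf2] at F3 F5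
  have K0 : 0 ≤ 1 + 4 * k := by rw [← se]; exact Finset.sum_nonneg fun j _ => he j
  have O0 : 0 ≤ 1 + 4 * o := by rw [← sf]; exact Finset.sum_nonneg fun j _ => hf j
  refine cells_aux (A := e i) (B := f i) (k := k) (o := o) (z := z) (z' := z') (he i) (he1 i) (hf i)
    (hf1 i) ?_ ?_ z0 z1 y0 y1 (by linarith) (by linarith) K0 O0 E5 F5 ?_ ?_
  · nlinarith [sq_nonneg (e i - 2 * k)]
  · nlinarith [sq_nonneg (f i - 2 * o)]
  · linarith
  · nlinarith

/-- Points of the cap. -/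
theorem cap (he : ∀ j, 0 ≤ e j) (he1 : ∀ j, e j ≤ 1) (hf : ∀ j, 0 ≤ f j)
    (hf1 : ∀ j, f j ≤ 1) (se : ∑ j, e j = 1 + 4 * k) (se2 : ∑ j, e j ^ 2 = 1 - 2 * z ^ 2 + 4 * k ^ 2)
    (sf : ∑ j, f j = 1 + 4 * o) (sf2 : ∑ j, f j ^ 2 = 1 - 2 * z' ^ 2 + 4 * o ^ 2)
    (z0 : 1 / 5 ≤ z) (z1 : z ≤ 1) (y0 : 1 / 5 ≤ z') (y1 : z' ≤ 1) :
    4 * k * o < ∑ j, e j * f j + 2 * (z * z') := by
  by_contra hc
  push Not at hc
  obtain ⟨i, hi⟩ := Finite.exists_max e
  obtain ⟨i', hi'⟩ := Finite.exists_max f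
  have E1 : 0 ≤ ∑ j, e j * f j := Finset.sum_nonneg fun j _ => mul_nonneg (he j) (hf j)
  have E2 : 0 ≤ ∑ j, (e i - e j) * (f i' - f j) :=
    Finset.sum_nonneg fun j _ => mul_nonneg (sub_nonneg.2 (hi j)) (sub_nonneg.2 (hi' j))
  have E4 : ∑ j, e j ≤ 4 * e i := by
    have := Finset.sum_le_sum (s := Finset.univ) fun j _ => hi j
    simpa using this
  have F4 : ∑ j, f j ≤ 4 * f i' := by
    have := Finset.sum_le_sum (s := Finset.univ) fun j _ => hi' j
    simpa using this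
  have E5 : ∑ j, e j ^ 2 ≤ (∑ j, e j) ^ 2 := Finset.sum_sq_le_sq_sum_of_nonneg fun j _ => he j
  have F5 : ∑ j, f j ^ 2 ≤ (∑ j, f j) ^ 2 := Finset.sum_sq_le_sq_sum_of_nonneg fun j _ => hf j
  have E6 : ∑ j, (e i - e j) * (f i' - f j) = 4 * (e i * f i') - e i * ∑ j, f j -
      f i' * ∑ j, e j + ∑ j, e j * f j := by
    simp only [Fin.sum_univ_four]; ring
  have E7 : 0 ≤ ∑ j, (f i' * e j + e i * f j - e i * f i') ^ 2 :=
    Finset.sum_nonneg fun j _ => sq_nonneg _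
  have E8 : ∑ j, (f i' * e j + e i * f j - e i * f i') ^ 2 = f i' ^ 2 * ∑ j, e j ^ 2 +
      e i ^ 2 * ∑ j, f j ^ 2 + 4 * e i ^ 2 * f i' ^ 2 + 2 * e i * f i' * ∑ j, e j * f j -
      2 * e i * f i' ^ 2 * ∑ j, e j - 2 * e i ^ 2 * f i' * ∑ j, f j := by
    simp only [Fin.sum_univ_four]; ring
  rw [se] at E4 E5 E6 E8
  rw [sf] at F4 F5 E6 E8
  rw [se2] at E5 E8
  rw [sf2] at F5 E8
  have K0 : 0 ≤ 1 + 4 * k := by rw [← se]; exact Finset.sum_nonneg fun j _ => he j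
  have O0 : 0 ≤ 1 + 4 * o := by rw [← sf]; exact Finset.sum_nonneg fun j _ => hf j
  refine cap_aux (A := e i) (B := f i') (k := k) (o := o) (z := z) (z' := z') (he1 i) (hf1 i')
    z0 z1 y0 y1 (by linarith) (by linarith) K0 O0 E5 F5 (by linarith) (by nlinarith) ?_
  have hpos : 0 ≤ 2 * e i * f i' := by
    have := mul_nonneg (he i) (hf i')
    linarith
  have := mul_le_mul_of_nonneg_left (show ∑ j, e j * f j ≤ 4 * k * o - 2 * (z * z') by linarith) hpos
  linarith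

end vectors

end Vale.Agent.P052.H181
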