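import Mathlib

/-!
# Real inequality of the cells, five points in `ℝ⁵`
-/

set_option autoImplicit false

namespace Vale.Agent.P052.H181.Five

theorem cs5 {A B κ ω : ℝ} (hκ : 0 < κ) (hω : 0 < ω) (hA : 0 < A - κ) (hB : 0 < B - ω) :
    0 ≤ 5 * (A * B) - 5 * (κ * ω) - 5 * ((A - κ) * (B - ω)) ∧
    4 * (5 * (κ * ω)) * (5 * ((A - κ) * (B - ω))) ≤
      (5 * (A * B) - 5 * (κ * ω) - 5 * ((A - κ) * (B - ω))) ^ 2 := by
  have e : 5 * (A * B) - 5 * (κ * ω) - 5 * ((A - κ) * (B - ω)) =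
      5 * (κ * (B - ω)) + 5 * (ω * (A - κ)) := by ring
  have h1 : 0 ≤ κ * (B - ω) := by positivity
  have h2 : 0 ≤ ω * (A - κ) := by positivity
  rw [e]
  refine ⟨by positivity, ?_⟩
  have e2 : (5 * (κ * (B - ω)) + 5 * (ω * (A - κ))) ^ 2 -
      4 * (5 * (κ * ω)) * (5 * ((A - κ) * (B - ω))) =
      25 * (κ * (B - ω) - ω * (A - κ)) ^ 2 := by ring
  have := sq_nonneg (κ * (B - ω) - ω * (A - κ))
  linarith

theorem low {A m k t : ℝ} (hk : 0 ≤ k) (A0 : 0 ≤ A) (h : t ≤ A + k * A ^ 2)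
    (hm : m + k * m ^ 2 < t) (_m0 : 0 ≤ m) : m ≤ A := by
  by_contra hc
  push Not at hc
  have h1 : A ^ 2 ≤ m ^ 2 := by
    apply sq_le_sq'
    · linarith
    · exact hc.le
  have := mul_le_mul_of_nonneg_left h1 hk
  linarith

theorem pos_of {A κ t : ℝ} (ht : 0 < t) (hκA : κ < A) (h : t ≤ A + 5 * (κ * (A - κ))) : 0 < A := by
  by_contra hc
  push Not at hc
  have : κ * (A - κ) ≤ 0 := mul_nonpos_of_nonpos_of_nonneg (by linarith) (by linarith)
  linarith

theorem quart {A κ : ℝ} : κ * (A - κ) ≤ A ^ 2 / 4 := by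
  have := sq_nonneg (A - 2 * κ)
  have e : (A - 2 * κ) ^ 2 = A ^ 2 - 4 * (κ * (A - κ)) := by ring
  linarith

/-- case of a large product -/
theorem large {A B κ ω : ℝ} (A0 : 0 < A) (B0 : 0 < B) (A1 : A ≤ 1) (B1 : B ≤ 1) (hκ : 0 < κ)
    (hω : 0 < ω) (hA : 0 < A - κ) (hB : 0 < B - ω)
    (H1 : A * B - 3 / 16 ≤ 5 * (κ * ω))
    (H2 : A + B - 3 / 16 ≤ 5 * ((A - κ) * (B - ω)))
    (hW : 1107 / 5000 < A * B) : False := by
  have sP := Real.sq_sqrt (mul_pos A0 B0).le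
  have nP := Real.sqrt_nonneg (A * B)
  obtain ⟨P, hP⟩ : ∃ P, P = Real.sqrt (A * B) := ⟨_, rfl⟩
  rw [← hP] at sP nP
  have hAB1 : A * B ≤ 1 := mul_le_one₀ A1 B0.le B1
  have P1 : P ≤ 1 := by
    by_contra hc
    push Not at hc
    nlinarith
  have P0 : 4705 / 10000 ≤ P := by
    by_contra hc
    push Not at hc
    nlinarith
  have hAB2 : 2 * P ≤ A + B := by
    refine abs_le_of_sq_le_sq' ?_ (by linarith) |>.2
    have := sq_nonneg (A - B)
    have e : (2 * P) ^ 2 = 4 * (A * B) := by rw [mul_pow, sP]; ring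
    rw [e]
    have e2 : (A + B) ^ 2 = 4 * (A * B) + (A - B) ^ 2 := by ring
    linarith
  obtain ⟨c1, c2⟩ := cs5 hκ hω hA hB
  obtain ⟨u, hu⟩ : ∃ u, u = 5 * (κ * ω) := ⟨_, rfl⟩
  obtain ⟨v, hv⟩ : ∃ v, v = 5 * ((A - κ) * (B - ω)) := ⟨_, rfl⟩
  rw [← hu] at H1 c1 c2
  rw [← hv] at H2 c1 c2
  rw [← sP] at H1 c1 c2
  have a0 : 0 ≤ P ^ 2 - 3 / 16 := by nlinarith
  have b0 : 0 ≤ 2 * P - 3 / 16 := by linarith
  have u0 : P ^ 2 - 3 / 16 ≤ u := H1
  have v0 : 2 * P - 3 / 16 ≤ v := by linarith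
  have k1 : (P ^ 2 - 3 / 16) * (2 * P - 3 / 16) ≤ u * v :=
    mul_le_mul u0 v0 b0 (a0.trans u0)
  have k2 : (5 * P ^ 2 - u - v) ^ 2 ≤ (4 * P ^ 2 - 2 * P + 3 / 8) ^ 2 := by
    apply sq_le_sq'
    · linarith
    · linarith
  have k3 : (P ^ 2 - 3 / 16) * (2 * P - 3 / 16) * 4 ≤ (4 * P ^ 2 - 2 * P + 3 / 8) ^ 2 := by
    linarith
  have e : (4 * P ^ 2 - 2 * P + 3 / 8) ^ 2 - (P ^ 2 - 3 / 16) * (2 * P - 3 / 16) * 4 =
      -(4 * (P ^ 2 * (-4 * P ^ 2 + 6 * P - 31 / 16))) := by ring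
  have h5 : 0 < -4 * P ^ 2 + 6 * P - 31 / 16 := by
    nlinarith [mul_nonneg (sub_nonneg.2 P0) (sub_nonneg.2 P1)]
  have h6 : 0 < P ^ 2 * (-4 * P ^ 2 + 6 * P - 31 / 16) := by
    have : 0 < P := by linarith
    positivity
  linarith

theorem tt {t a : ℝ} (h : a ≤ t) (ha : 1 / 2 ≤ a) : t * (1 - t) ≤ a * (1 - a) := by
  have := mul_nonneg (sub_nonneg.2 h) (show 0 ≤ t + a - 1 by linarith)
  linarith

/-- case of a small product -/
theorem small {A B κ ω : ℝ} (A0 : 0 < A) (B0 : 0 < B) (hκ : 0 < κ)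
    (hω : 0 < ω) (hA' : 0 < A - κ) (hB' : 0 < B - ω)
    (hA : 1 / 2 ≤ A + 5 * (κ * (A - κ))) (hB : 119 / 128 ≤ B + 5 * (ω * (B - ω)))
    (H2 : A + B - 3 / 16 ≤ 5 * ((A - κ) * (B - ω)))
    (hWl : 1 / 10 ≤ A * B) (hW : A * B ≤ 1107 / 5000) : False := by
  obtain ⟨t, ht⟩ : ∃ t, t = (A - κ) / A := ⟨_, rfl⟩
  obtain ⟨s, hs⟩ : ∃ s, s = (B - ω) / B := ⟨_, rfl⟩
  have etA : A - κ = A * t := by rw [ht]; field_simp
  have esB : B - ω = B * s := by rw [hs]; field_simp
  have t0 : 0 < t := by rw [ht]; positivity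
  have s0 : 0 < s := by rw [hs]; positivity
  have t1 : t ≤ 1 := by rw [ht, div_le_one A0]; linarith
  have s1 : s ≤ 1 := by rw [hs, div_le_one B0]; linarith
  have eκ : κ = A * (1 - t) := by linarith
  have eω : ω = B * (1 - s) := by linarith
  rw [etA, esB] at H2
  rw [etA] at hA
  rw [esB] at hB
  have hA2 : 1 / 2 ≤ A + 5 * (t * (1 - t)) * A ^ 2 := by
    have e : 5 * (κ * (A * t)) = 5 * (t * (1 - t)) * A ^ 2 := by rw [eκ]; ring
    linarith
  have hB2 : 119 / 128 ≤ B + 5 * (s * (1 - s)) * B ^ 2 := by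
    have e : 5 * (ω * (B * s)) = 5 * (s * (1 - s)) * B ^ 2 := by rw [eω]; ring
    linarith
  have hts : 6807 / 10000 ≤ t * s := by
    by_contra hc
    push Not at hc
    obtain ⟨W, hWd⟩ : ∃ W, W = A * B := ⟨_, rfl⟩
    have e : 5 * (A * t * (B * s)) = 5 * W * (t * s) := by rw [hWd]; ring
    rw [e] at H2
    rw [← hWd] at hWl hW
    have h1 : 5 * W * (t * s) ≤ 5 * W * (6807 / 10000) :=
      mul_le_mul_of_nonneg_left hc.le (by linarith)
    have h2 : A + B ≤ 3 / 16 + 34035 / 10000 * W := by linarith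
    have h3 : (A + B) ^ 2 ≤ (3 / 16 + 34035 / 10000 * W) ^ 2 := by
      apply sq_le_sq'
      · linarith
      · exact h2
    have h4 : 4 * W ≤ (A + B) ^ 2 := by
      have := sq_nonneg (A - B)
      have e2 : (A + B) ^ 2 = 4 * (A * B) + (A - B) ^ 2 := by ring
      rw [e2, ← hWd]; linarith
    have h5 := mul_nonneg (sub_nonneg.2 hWl) (sub_nonneg.2 hW)
    nlinarith
  have t68 : 68 / 100 ≤ t := by
    have : t * s ≤ t := mul_le_of_le_one_right t0.le s1
    linarith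
  have s68 : 68 / 100 ≤ s := by
    have : t * s ≤ s := mul_le_of_le_one_left s0.le t1
    linarith
  have ht' := tt t68 (by norm_num)
  have hs' := tt s68 (by norm_num)
  have sqA := sq_nonneg A
  have sqB := sq_nonneg B
  rcases le_or_gt (825 / 1000) t with h | h
  · have h' := tt h (by norm_num)
    have a1 : 390 / 1000 ≤ A := by
      refine low (k := 5 * (825 / 1000 * (1 - 825 / 1000))) (t := 1 / 2) (by norm_num) A0.le ?_
        (by norm_num) (by norm_num)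
      have := mul_le_mul_of_nonneg_right h' sqA
      linarith
    have b1 : 5727 / 10000 ≤ B := by
      refine low (k := 5 * (68 / 100 * (1 - 68 / 100))) (t := 119 / 128) (by norm_num) B0.le ?_
        (by norm_num) (by norm_num)
      have := mul_le_mul_of_nonneg_right hs' sqB
      linarith
    have := mul_le_mul a1 b1 (by norm_num) A0.le
    linarith
  · have h2 : 825 / 1000 ≤ s := by
      by_contra hc
      push Not at hc
      have := mul_le_mul h.le hc.le s0.le (by norm_num)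
      linarith
    have h' := tt h2 (by norm_num)
    have a1 : 3594 / 10000 ≤ A := by
      refine low (k := 5 * (68 / 100 * (1 - 68 / 100))) (t := 1 / 2) (by norm_num) A0.le ?_
        (by norm_num) (by norm_num)
      have := mul_le_mul_of_nonneg_right ht' sqA
      linarith
    have b1 : 6368 / 10000 ≤ B := by
      refine low (k := 5 * (825 / 1000 * (1 - 825 / 1000))) (t := 119 / 128) (by norm_num) B0.le ?_
        (by norm_num) (by norm_num)
      have := mul_le_mul_of_nonneg_right h' sqB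
      linarith
    have := mul_le_mul a1 b1 (by norm_num) A0.le
    linarith

/-- points on different sides of the hyperplane -/
theorem neg5 {A B κ ω : ℝ} (A1 : A ≤ 1) (B1 : B ≤ 1) (hκA : κ < A) (hωB : ω < B)
    (hκ : -(1 / 5) < κ) (hω : -(1 / 5) < ω)
    (hA : 1 / 2 ≤ A + 5 * (κ * (A - κ))) (hB : 119 / 128 ≤ B + 5 * (ω * (B - ω)))
    (H1 : A * B - 3 / 16 ≤ 5 * (κ * ω))
    (H2 : A + B - 3 / 16 ≤ 5 * ((A - κ) * (B - ω))) : False := by
  have A0 := pos_of (by norm_num) hκA hA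
  have B0 := pos_of (by norm_num) hωB hB
  have qA := quart (A := A) (κ := κ)
  have qB := quart (A := B) (κ := ω)
  have a1 : 348 / 1000 ≤ A := low (k := 5 / 4) (t := 1 / 2) (by norm_num) A0.le (by linarith)
    (by norm_num) (by norm_num)
  have b1 : 55 / 100 ≤ B := low (k := 5 / 4) (t := 119 / 128) (by norm_num) B0.le (by linarith)
    (by norm_num) (by norm_num)
  have w1 := mul_le_mul a1 b1 (by norm_num) A0.le
  have hpos : 0 < κ * ω := by linarith
  rcases le_or_gt κ 0 with hk | hk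
  · have ho : ω < 0 := by
      by_contra hc
      push Not at hc
      exact absurd (mul_nonpos_of_nonpos_of_nonneg hk hc) (not_le.2 hpos)
    have e1 : κ * (A - κ) ≤ 0 := mul_nonpos_of_nonpos_of_nonneg hk (by linarith)
    have e2 : ω * (B - ω) ≤ 0 := mul_nonpos_of_nonpos_of_nonneg ho.le (by linarith)
    have w2 := mul_le_mul (show 1 / 2 ≤ A by linarith) (show 119 / 128 ≤ B by linarith)
      (by norm_num) A0.le
    have w3 := mul_le_mul (show -κ ≤ 1 / 5 by linarith) (show -ω ≤ 1 / 5 by linarith)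
      (by linarith) (by norm_num)
    have e3 : -κ * -ω = κ * ω := by ring
    linarith
  · have ho : 0 < ω := by
      by_contra hc
      push Not at hc
      exact absurd (mul_nonpos_of_nonneg_of_nonpos hk.le hc) (not_le.2 hpos)
    rcases le_or_gt (A * B) (1107 / 5000) with hW | hW
    · exact small A0 B0 hk ho (by linarith) (by linarith) hA hB H2 (by linarith) hW
    · exact large A0 B0 A1 B1 hk ho (by linarith) (by linarith) H1 H2 hW

/-- points on the same side -/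
theorem pos5 {A B κ ω : ℝ} (A1 : A ≤ 1) (B1 : B ≤ 1) (hκA : κ < A) (hωB : ω < B)
    (hκ : -(1 / 5) < κ) (hω : -(1 / 5) < ω)
    (hA : 1 / 2 ≤ A + 5 * (κ * (A - κ))) (hB : 1 / 2 ≤ B + 5 * (ω * (B - ω)))
    (H1 : A * B ≤ 5 * (κ * ω)) (H2 : A + B ≤ 5 * ((A - κ) * (B - ω))) : False := by
  have A0 := pos_of (by norm_num) hκA hA
  have B0 := pos_of (by norm_num) hωB hB
  have hAB := mul_pos A0 B0
  have hpos : 0 < κ * ω := by linarith
  rcases le_or_gt κ 0 with hk | hk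
  · have ho : ω < 0 := by
      by_contra hc
      push Not at hc
      exact absurd (mul_nonpos_of_nonpos_of_nonneg hk hc) (not_le.2 hpos)
    have e1 : κ * (A - κ) ≤ 0 := mul_nonpos_of_nonpos_of_nonneg hk (by linarith)
    have e2 : ω * (B - ω) ≤ 0 := mul_nonpos_of_nonpos_of_nonneg ho.le (by linarith)
    have w2 := mul_le_mul (show 1 / 2 ≤ A by linarith) (show 1 / 2 ≤ B by linarith)
      (by norm_num) A0.le
    have w3 := mul_le_mul (show -κ ≤ 1 / 5 by linarith) (show -ω ≤ 1 / 5 by linarith)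
      (by linarith) (by norm_num)
    have e3 : -κ * -ω = κ * ω := by ring
    linarith
  · have ho : 0 < ω := by
      by_contra hc
      push Not at hc
      exact absurd (mul_nonpos_of_nonneg_of_nonpos hk.le hc) (not_le.2 hpos)
    obtain ⟨c1, c2⟩ := cs5 hk ho (show 0 < A - κ by linarith) (show 0 < B - ω by linarith)
    have q1 : A * B ≤ A := mul_le_of_le_one_right A0.le B1
    have q2 : A * B ≤ B := mul_le_of_le_one_left B0.le A1
    obtain ⟨u, hu⟩ : ∃ u, u = 5 * (κ * ω) := ⟨_, rfl⟩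
    obtain ⟨v, hv⟩ : ∃ v, v = 5 * ((A - κ) * (B - ω)) := ⟨_, rfl⟩
    obtain ⟨W, hW⟩ : ∃ W, W = A * B := ⟨_, rfl⟩
    rw [← hu] at H1 c1 c2
    rw [← hv] at H2 c1 c2
    rw [← hW] at H1 c1 c2 q1 q2 hAB
    have v0 : 2 * W ≤ v := by linarith
    have k1 : W * (2 * W) ≤ u * v := mul_le_mul H1 v0 (by linarith) (by linarith)
    have k2 : (5 * W - u - v) ^ 2 ≤ (2 * W) ^ 2 := by
      apply sq_le_sq'
      · linarith
      · linarith
    have k3 : 0 < W ^ 2 := by positivity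
    nlinarith

theorem sqb {z a : ℝ} (h0 : -a ≤ z) (h1 : z ≤ a) : z ^ 2 ≤ a ^ 2 := sq_le_sq' h0 h1

theorem real_cell5 {A B κ ω z z' E : ℝ} (hA1 : A ≤ 1) (hB1 : B ≤ 1) (hκA : κ < A) (hωB : ω < B)
    (hκ : -(1/5) < κ) (hω : -(1/5) < ω) (hz1 : -(1/2) ≤ z) (hz2 : z ≤ 3/16) (hz'1 : -(1/2) ≤ z')
    (hz'2 : z' ≤ 3/16) (hCA : 1 - 2 * z ^ 2 + 5 * κ ^ 2 ≤ A * (1 + 5 * κ))
    (hCB : 1 - 2 * z' ^ 2 + 5 * ω ^ 2 ≤ B * (1 + 5 * ω)) (h1 : A * B ≤ E)
    (h2 : A * (1 + 5 * ω) + B * (1 + 5 * κ) - 5 * (A * B) ≤ E) :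
    5 * (κ * ω) < E + 2 * (z * z') := by
  by_contra hc
  push Not at hc
  have H1 : A * B + 2 * (z * z') ≤ 5 * (κ * ω) := by linarith
  have H2 : A + B + 2 * (z * z') ≤ 5 * ((A - κ) * (B - ω)) := by
    have e : 5 * ((A - κ) * (B - ω)) = 5 * (A * B) - 5 * (A * ω) - 5 * (B * κ) + 5 * (κ * ω) := by
      ring
    rw [e]; linarith
  have hA : 1 - 2 * z ^ 2 ≤ A + 5 * (κ * (A - κ)) := by linarith
  have hB : 1 - 2 * z' ^ 2 ≤ B + 5 * (ω * (B - ω)) := by linarith
  have zs : z ^ 2 ≤ (1 / 2) ^ 2 := sqb hz1 (by linarith)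
  have ys : z' ^ 2 ≤ (1 / 2) ^ 2 := sqb hz'1 (by linarith)
  rcases le_or_gt 0 (z * z') with ht | ht
  · exact pos5 hA1 hB1 hκA hωB hκ hω (by linarith) (by linarith) (by linarith) (by linarith)
  · rcases lt_or_ge z 0 with hz | hz
    · have hz' : 0 < z' := by
        by_contra hc
        push Not at hc
        exact absurd (mul_nonneg_of_nonpos_of_nonpos hz.le hc) (not_le.2 ht)
      have ys' : z' ^ 2 ≤ (3 / 16) ^ 2 := sqb (by linarith) hz'2
      have w := mul_le_mul (show -z ≤ 1 / 2 by linarith) hz'2 hz'.le (by norm_num)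
      have e : -z * z' = -(z * z') := by ring
      exact neg5 hA1 hB1 hκA hωB hκ hω (by linarith) (by linarith) (by linarith) (by linarith)
    · have hz' : z' < 0 := by
        by_contra hc
        push Not at hc
        exact absurd (mul_nonneg hz hc) (not_le.2 ht)
      have zs' : z ^ 2 ≤ (3 / 16) ^ 2 := sqb (by linarith) hz2
      have w := mul_le_mul hz2 (show -z' ≤ 1 / 2 by linarith) (by linarith) (by norm_num)
      have e : z * -z' = -(z * z') := by ring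
      have e1 : B * A = A * B := mul_comm _ _
      have e2 : ω * κ = κ * ω := mul_comm _ _
      have e3 : (B - ω) * (A - κ) = (A - κ) * (B - ω) := mul_comm _ _
      exact neg5 (A := B) (B := A) (κ := ω) (ω := κ) hB1 hA1 hωB hκA hω hκ (by linarith)
        (by linarith) (by rw [e1, e2]; linarith) (by rw [e3]; linarith)

end Vale.Agent.P052.H181.Five
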